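import Vale.Agent.P038.NearTournament

/-!
Second neighbourhoods in oriented graphs whose missing graph has no large balanced biclique.
-/

namespace Vale.Agent.P038.Biclique

open Finset

variable {V : Type} [Fintype V]

open Classical in
/-- If the missing graph has no balanced biclique with `s + 1` vertices on each side, then some
vertex has `(|N₁⁺(v)| - |N₂⁺(v)|)² ≤ 2 s n`. -/
theorem exists_deficit_sq_le [Nonempty V] (D : V → V → Prop) (hD : ∀ u v, D u v → ¬ D v u)
    (s : ℕ) (hs : ∀ P Q : Finset V, #P = s + 1 → #Q = s + 1 →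
      ∃ a ∈ P, ∃ b ∈ Q, a = b ∨ D a b ∨ D b a) :
    ∃ v, (#{w | D v w} - #{w | w ≠ v ∧ ¬ D v w ∧ ∃ u, D v u ∧ D u w}) ^ 2 ≤
      2 * s * Fintype.card V := by
  have irr : ∀ a, ¬ D a a := fun a h => hD a a h h
  let Gap : V → V → Prop := fun a y => a ≠ y ∧ ¬ D a y ∧ ¬ D y a
  let Reach : V → V → Prop := fun y z => D y z ∨ ∃ w, D y w ∧ D w z
  let Z : V → V → Finset V := fun a y => {z | (z = a ∨ D a z) ∧ ¬ Reach y z}
  let Fwd : V → V → Prop := fun a y => Gap a y ∧ #(Z y a) < #(Z a y)
  let M : V → V → ℝ := fun a y =>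
    if D a y ∨ Fwd a y then 1 else if D y a ∨ Fwd y a then -1 else 0
  have hexcl : ∀ a y, D a y ∨ Fwd a y → ¬ (D y a ∨ Fwd y a) := by
    rintro a y (h | h) (h' | h')
    · exact hD _ _ h h'
    · exact h'.1.2.2 h
    · exact h.1.2.2 h'
    · exact lt_asymm h.2 h'.2
  have hskew : ∀ a y, M a y = -M y a := by
    intro a y
    simp only [M]
    by_cases h1 : D a y ∨ Fwd a y
    · simp [h1, hexcl a y h1]
    · by_cases h2 : D y a ∨ Fwd y a <;> simp [h1, h2]
  have hMle : ∀ a y, M a y ≤ 1 := by
    intro a y
    simp only [M]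
    split_ifs <;> norm_num
  have hMge : ∀ a y, -1 ≤ M a y := by
    intro a y
    linarith [hskew a y, hMle y a]
  -- two conflict sets span a biclique of the missing graph
  have hbic : ∀ a y, Gap a y → ∀ z ∈ Z a y, ∀ w ∈ Z y a, z ≠ w ∧ ¬ D z w ∧ ¬ D w z := by
    rintro a y ⟨hne, hay, hya⟩ z hz w hw
    simp only [Z, Reach, Finset.mem_filter, Finset.mem_univ, true_and] at hz hw
    push Not at hz hw
    refine ⟨?_, ?_, ?_⟩
    · rintro rfl
      rcases hw.1 with rfl | h
      · rcases hz.1 with h | h
        · exact hne h.symm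
        · exact hay h
      · exact hz.2.1 h
    · intro h
      rcases hz.1 with rfl | h'
      · exact hw.2.1 h
      · exact hw.2.2 z h' h
    · intro h
      rcases hw.1 with rfl | h'
      · exact hz.2.1 h
      · exact hz.2.2 w h' h
  have hmin : ∀ a y, Gap a y → #(Z a y) ≤ s ∨ #(Z y a) ≤ s := by
    intro a y h
    by_contra hc
    push Not at hc
    obtain ⟨P, hP, hPc⟩ := Finset.exists_subset_card_eq (Nat.succ_le_of_lt hc.1)
    obtain ⟨Q, hQ, hQc⟩ := Finset.exists_subset_card_eq (Nat.succ_le_of_lt hc.2)
    obtain ⟨z, hz, w, hw, hzw⟩ := hs P Q hPc hQc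
    obtain ⟨h1, h2, h3⟩ := hbic a y h z (hP hz) w (hQ hw)
    exact hzw.elim h1 fun e => e.elim h2 h3
  obtain ⟨q, hq0, hq1, hMq, hMq0⟩ :=
    Vale.Agent.P038.NearTournament.exists_losing M hskew
  let U : V → V → Prop := fun z v => v ≠ z ∧ ¬ Reach v z
  let T : V → V → Prop := fun z v => v ≠ z ∧ ¬ D v z ∧ ∃ u, D v u ∧ D u z
  let L : V → V → V → ℝ := fun z x y =>
    if U z y ∧ (x = z ∨ D x z) then q y * q x * (1 - M x y) else 0
  let S : V → ℝ := fun z => ∑ y, ∑ x, L z x y
  let P : V → ℝ := fun z =>
    max 0 ((∑ x, if D x z then q x else 0) - ∑ x, if T z x then q x else 0)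
  have hL0 : ∀ z x y, 0 ≤ L z x y := by
    intro z x y
    simp only [L]
    split_ifs
    · exact mul_nonneg (mul_nonneg (hq0 y) (hq0 x)) (by linarith [hMle x y])
    · exact le_rfl
  have hcases : ∀ z x, x = z ∨ D x z ∨ T z x ∨ U z x := by
    intro z x
    by_cases h1 : x = z
    · exact Or.inl h1
    by_cases h2 : D x z
    · exact Or.inr (Or.inl h2)
    by_cases h3 : ∃ u, D x u ∧ D u z
    · exact Or.inr (Or.inr (Or.inl ⟨h1, h2, h3⟩))
    exact Or.inr (Or.inr (Or.inr ⟨h1, fun e => e.elim h2 h3⟩))
  have hP : ∀ z, P z ^ 2 ≤ S z := by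
    intro z
    set qA := ∑ x, if D x z then q x else 0 with hqA
    set qT := ∑ x, if T z x then q x else 0 with hqT
    set W := ∑ x, if U z x then q x else 0 with hW
    have hW0 : 0 ≤ W := Finset.sum_nonneg fun y _ => by split_ifs <;> simp [hq0 y]
    have hz : ∑ x, M z x * q x ≤ -qA + qT + W := by
      simp only [hqA, hqT, hW, ← Finset.sum_neg_distrib, ← Finset.sum_add_distrib]
      refine Finset.sum_le_sum fun x _ => ?_
      have hq := hq0 x
      rcases hcases z x with rfl | h | h | h
      · have : M x x = 0 := by linarith [hskew x x]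
        simp [this, T, U, irr]
      · have : M z x = -1 := by
          simp [M, h, hD _ _ h, Fwd, Gap]
        simp [this, h, T, U, Reach]
      · have h' : ¬ U z x := fun e => e.2 (Or.inr h.2.2)
        simp [h, h', h.2.1]
        nlinarith [hMle z x]
      · have h' : ¬ T z x := fun e => h.2 (Or.inr e.2.2)
        have h'' : ¬ D x z := fun e => h.2 (Or.inl e)
        simp [h, h', h'']
        nlinarith [hMle z x]
    have hAW : qA - qT ≤ W := by linarith [hMq z]
    have hflow : ∀ y, U z y → ∑ x, M y x * q x ≤ qT - qA +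
        (∑ x, if x = z ∨ D x z then q x * (1 - M x y) else 0) +
        ∑ x, if U z x then M y x * q x else 0 := by
      intro y _
      simp only [hqA, hqT, ← Finset.sum_sub_distrib, ← Finset.sum_add_distrib]
      refine Finset.sum_le_sum fun x _ => ?_
      have hq := hq0 x
      rw [hskew y x]
      rcases hcases z x with rfl | h | h | h
      · simp [T, U, irr]
        nlinarith
      · simp [h, T, U, Reach]
        nlinarith
      · have h' : ¬ U z x := fun e => e.2 (Or.inr h.2.2)
        simp [h, h', h.1, h.2.1]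
        nlinarith [hMge x y]
      · have h' : ¬ T z x := fun e => h.2 (Or.inr e.2.2)
        have h'' : ¬ D x z := fun e => h.2 (Or.inl e)
        simp [h, h', h'', h.1]
    have hcancel : (∑ y, ∑ x, if U z y ∧ U z x then q y * (M y x * q x) else 0) = 0 := by
      have e : (∑ y, ∑ x, if U z y ∧ U z x then q y * (M y x * q x) else 0) =
          -∑ y, ∑ x, if U z y ∧ U z x then q y * (M y x * q x) else 0 := by
        conv_lhs => rw [Finset.sum_comm]
        simp only [← Finset.sum_neg_distrib]
        refine Finset.sum_congr rfl fun y _ => Finset.sum_congr rfl fun x _ => ?_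
        rw [hskew x y]
        by_cases h1 : U z y <;> by_cases h2 : U z x <;> simp [h1, h2] <;> ring
      linarith
    have hWS : W * (qA - qT) ≤ S z := by
      have h1 : ∀ y, (if U z y then q y * (qA - qT) else 0) ≤ (∑ x, L z x y) +
          ∑ x, if U z y ∧ U z x then q y * (M y x * q x) else 0 := by
        intro y
        by_cases hy : U z y
        · have e := mul_le_mul_of_nonneg_left (hflow y hy) (hq0 y)
          rw [hMq0 y, mul_add, mul_add, Finset.mul_sum, Finset.mul_sum] at e
          have e1 : (∑ x, L z x y) =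
              ∑ x, q y * (if x = z ∨ D x z then q x * (1 - M x y) else 0) :=
            Finset.sum_congr rfl fun x _ => by simp [L, hy, mul_assoc]
          have e2 : (∑ x, if U z y ∧ U z x then q y * (M y x * q x) else 0) =
              ∑ x, q y * (if U z x then M y x * q x else 0) :=
            Finset.sum_congr rfl fun x _ => by simp [hy]
          rw [e1, e2, if_pos hy]
          linarith
        · simp [hy, L]
      have h2 := Finset.sum_le_sum (s := univ) fun y (_ : y ∈ univ) => h1 y
      rw [Finset.sum_add_distrib, hcancel, add_zero] at h2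
      calc W * (qA - qT) = ∑ y, if U z y then q y * (qA - qT) else 0 := by
            rw [hW, Finset.sum_mul]
            exact Finset.sum_congr rfl fun y _ => by split_ifs <;> simp
        _ ≤ S z := h2
    have hS0 : 0 ≤ S z := Finset.sum_nonneg fun y _ => Finset.sum_nonneg fun x _ => hL0 z x y
    rcases le_total (qA - qT) 0 with h | h
    · simp only [P, ← hqA, ← hqT, max_eq_left h]
      simpa using hS0
    · simp only [P, ← hqA, ← hqT, max_eq_right h]
      nlinarith
  have hcount : ∑ z, S z ≤ 2 * s := by
    calc ∑ z, S z = ∑ y, ∑ x, ∑ z, L z x y := by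
          simp only [S]
          rw [Finset.sum_comm]
          exact Finset.sum_congr rfl fun y _ => Finset.sum_comm
      _ ≤ ∑ y, ∑ x, q y * q x * (2 * s) := by
          refine Finset.sum_le_sum fun y _ => Finset.sum_le_sum fun x _ => ?_
          simp only [L]
          rw [← Finset.sum_filter, Finset.sum_const, nsmul_eq_mul]
          set K : Finset V := Finset.filter (fun z => U z y ∧ (x = z ∨ D x z)) univ with hK
          rcases K.eq_empty_or_nonempty with he | ⟨z, hz⟩
          · rw [he]
            simp only [Finset.card_empty, Nat.cast_zero, zero_mul]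
            have := mul_nonneg (hq0 y) (hq0 x)
            positivity
          simp only [hK, Finset.mem_filter, Finset.mem_univ, true_and] at hz
          obtain ⟨hyU, hx⟩ := hz
          by_cases hxy : D x y
          · have : M x y = 1 := by simp [M, hxy]
            have h0 := mul_nonneg (hq0 y) (hq0 x)
            rw [this]
            simp only [sub_self, mul_zero]
            positivity
          have hgap : Gap x y := by
            refine ⟨?_, hxy, fun e => hyU.2 ?_⟩
            · rintro rfl
              exact hx.elim hyU.1 fun e => hyU.2 (Or.inl e)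
            · rcases hx with rfl | hx
              · exact Or.inl e
              · exact Or.inr ⟨x, e, hx⟩
          have hsub : #K ≤ #(Z x y) := Finset.card_le_card fun v hv => by
            simp only [hK, Z, Finset.mem_filter, Finset.mem_univ, true_and] at hv ⊢
            exact ⟨hv.2.imp Eq.symm id, hv.1.2⟩
          have hb : (#K : ℝ) * (1 - M x y) ≤ 2 * s := by
            rcases lt_trichotomy (#(Z y x)) (#(Z x y)) with h | h | h
            · have : M x y = 1 := by simp [M, Fwd, hgap, h]
              rw [this]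
              simp
            · have h1 : #K ≤ s := (hmin x y hgap).elim hsub.trans fun e => hsub.trans (h ▸ e)
              nlinarith [hMge x y, hMle x y, (Nat.cast_le (α := ℝ)).2 h1,
                Nat.cast_nonneg (α := ℝ) (#K)]
            · have h1 : #K ≤ s := (hmin x y hgap).elim hsub.trans fun e =>
                (hsub.trans h.le).trans e
              nlinarith [hMge x y, hMle x y, (Nat.cast_le (α := ℝ)).2 h1,
                Nat.cast_nonneg (α := ℝ) (#K)]
          nlinarith [mul_le_mul_of_nonneg_left hb (mul_nonneg (hq0 y) (hq0 x))]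
      _ = 2 * s := by
          simp only [← Finset.sum_mul, ← Finset.mul_sum, hq1, mul_one, one_mul]
  obtain ⟨v, -, hv⟩ := Finset.exists_min_image univ
    (fun v => ((#{w | D v w} : ℕ) : ℝ) -
      ((#{w | w ≠ v ∧ ¬ D v w ∧ ∃ u, D v u ∧ D u w} : ℕ) : ℝ)) univ_nonempty
  refine ⟨v, ?_⟩
  rcases le_total #{w | D v w} #{w | w ≠ v ∧ ¬ D v w ∧ ∃ u, D v u ∧ D u w} with h | h
  · simp [Nat.sub_eq_zero_of_le h]
  set d : ℝ := ((#{w | D v w} : ℕ) : ℝ) -
      ((#{w | w ≠ v ∧ ¬ D v w ∧ ∃ u, D v u ∧ D u w} : ℕ) : ℝ) with hd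
  have hd0 : 0 ≤ d := by
    have := (Nat.cast_le (α := ℝ)).2 h
    linarith
  have hdP : d ≤ ∑ z, P z := by
    calc d = ∑ x, q x * d := by rw [← Finset.sum_mul, hq1, one_mul]
      _ ≤ ∑ x, q x * (((#{w | D x w} : ℕ) : ℝ) -
          ((#{w | w ≠ x ∧ ¬ D x w ∧ ∃ u, D x u ∧ D u w} : ℕ) : ℝ)) :=
        Finset.sum_le_sum fun x _ =>
          mul_le_mul_of_nonneg_left (hv x (mem_univ x)) (hq0 x)
      _ = ∑ z, ((∑ x, if D x z then q x else 0) - ∑ x, if T z x then q x else 0) := by
        rw [Finset.sum_sub_distrib, Finset.sum_comm]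
        conv_rhs => arg 2; rw [Finset.sum_comm]
        rw [← Finset.sum_sub_distrib]
        refine Finset.sum_congr rfl fun x _ => ?_
        rw [← Finset.sum_filter, ← Finset.sum_filter, Finset.sum_const, Finset.sum_const,
          nsmul_eq_mul, nsmul_eq_mul]
        have hT : Finset.filter (fun z => T z x) univ =
            Finset.filter (fun w => w ≠ x ∧ ¬ D x w ∧ ∃ u, D x u ∧ D u w) univ :=
          Finset.filter_congr fun z _ => by simp only [T, ne_comm]
        rw [hT]
        ring
      _ ≤ ∑ z, P z := Finset.sum_le_sum fun z _ => le_max_right _ _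
  have hsq : d ^ 2 ≤ (2 * s * Fintype.card V : ℕ) := by
    calc d ^ 2 ≤ (∑ z, P z) ^ 2 := by nlinarith
      _ ≤ (Fintype.card V : ℝ) * ∑ z, P z ^ 2 := by
        simpa using sq_sum_le_card_mul_sum_sq (s := univ) (f := P)
      _ ≤ (Fintype.card V : ℝ) * (2 * s) := by
        refine mul_le_mul_of_nonneg_left ?_ (Nat.cast_nonneg _)
        exact (Finset.sum_le_sum fun z _ => hP z).trans hcount
      _ = _ := by push_cast; ring
  rw [hd, ← Nat.cast_sub h, ← Nat.cast_pow] at hsq
  exact_mod_cast hsq

end Vale.Agent.P038.Biclique
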