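import Mathlib

/-!
Second neighbourhoods in oriented graphs with K4-free underlying graph: ratio 4/5.
-/

namespace Vale.Agent.P038

open Finset

variable {V : Type} [Fintype V] [DecidableEq V] (D : V → V → Prop) [DecidableRel D]

/-- Out-neighbours inside a set. -/
def outIn (A : Finset V) (w : V) : Finset V := A.filter fun z => D w z

/-- In-neighbours inside a set. -/
def inIn (A : Finset V) (w : V) : Finset V := A.filter fun z => D z w

/-- A set without two adjacent vertices. -/
def Indep (M : Finset V) : Prop := ∀ x ∈ M, ∀ y ∈ M, ¬ D x y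

variable {D}

omit [Fintype V] [DecidableEq V] in
theorem sum_outIn (A : Finset V) :
    ∑ w ∈ A, Finset.card (outIn D A w) = ∑ w ∈ A, Finset.card (inIn D A w) := by
  simp only [outIn, inIn, Finset.card_filter]
  exact Finset.sum_comm

variable (hD : ∀ u v, D u v → ¬ D v u)
  (h4 : ∀ a b c e : V, (D a b ∨ D b a) → (D a c ∨ D c a) → (D a e ∨ D e a) →
    (D b c ∨ D c b) → (D b e ∨ D e b) → (D c e ∨ D e c) → False)

include hD in
omit [Fintype V] in
theorem card_nbr (A : Finset V) (w : V) :
    Finset.card (A.filter fun z => D w z ∨ D z w) =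
      Finset.card (outIn D A w) + Finset.card (inIn D A w) := by
  rw [Finset.filter_or, Finset.card_union_of_disjoint]
  · rfl
  · rw [Finset.disjoint_filter]
    exact fun z _ => hD _ _

include hD h4 in
/-- Edges inside the out-neighbourhood of `u`, given a large independent set there. -/
theorem sum_le_of_indep (u : V) (J : Finset V) (hJ : J ⊆ Finset.univ.filter fun w => D u w)
    (hJi : Indep D J) :
    ∃ m : ℕ, Finset.card J ≤ m ∧ m ≤ Finset.card (Finset.univ.filter fun w => D u w) ∧
      (∑ w ∈ Finset.univ.filter (fun w => D u w),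
        Finset.card (outIn D (Finset.univ.filter fun w => D u w) w)) + m * m ≤
      m * Finset.card (Finset.univ.filter fun w => D u w) := by
  classical
  set B := Finset.univ.filter (fun w => D u w) with hB
  obtain ⟨M, hM, hmax⟩ := Finset.exists_max_image (B.powerset.filter fun M => Indep D M)
    Finset.card ⟨J, by simp [hJ, hJi]⟩
  simp only [Finset.mem_filter, Finset.mem_powerset] at hM hmax
  refine ⟨Finset.card M, hmax J ⟨hJ, hJi⟩, Finset.card_le_card hM.1, ?_⟩
  have hmB : ∀ w, w ∈ B → D u w := fun w hw => (Finset.mem_filter.1 hw).2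
  have hnb : ∀ r ∈ B, Finset.card (outIn D B r) + Finset.card (inIn D B r) ≤ Finset.card M := by
    intro r hr
    rw [← card_nbr hD B r]
    refine hmax _ ⟨Finset.filter_subset _ _, fun x hx y hy hxy => ?_⟩
    simp only [Finset.mem_filter] at hx hy
    exact h4 u r x y (Or.inl (hmB r hr)) (Or.inl (hmB x hx.1)) (Or.inl (hmB y hy.1)) hx.2 hy.2
      (Or.inl hxy)
  have hsplit : ∀ w ∈ M, Finset.card (outIn D B w) ≤ Finset.card (outIn D (B \ M) w) := by
    intro w hw
    refine Finset.card_le_card fun z hz => ?_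
    simp only [outIn, Finset.mem_filter, Finset.mem_sdiff] at hz ⊢
    exact ⟨⟨hz.1, fun hzM => hM.2 w hw z hzM hz.2⟩, hz.2⟩
  have hswap : ∑ w ∈ M, Finset.card (outIn D (B \ M) w) =
      ∑ r ∈ B \ M, Finset.card (inIn D M r) := by
    simp only [outIn, inIn, Finset.card_filter]
    exact Finset.sum_comm
  have hin : ∑ r ∈ B \ M, Finset.card (inIn D M r) ≤ ∑ r ∈ B \ M, Finset.card (inIn D B r) :=
    Finset.sum_le_sum fun r _ => Finset.card_le_card (Finset.filter_subset_filter _ hM.1)
  have hR : ∑ r ∈ B \ M, (Finset.card (outIn D B r) + Finset.card (inIn D B r)) ≤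
      Finset.card (B \ M) * Finset.card M := by
    simpa using Finset.sum_le_card_nsmul _ _ _ fun r hr => hnb r (Finset.mem_sdiff.1 hr).1
  have hM' := Finset.sum_le_sum hsplit
  have e := Finset.sum_sdiff hM.1 (f := fun w => Finset.card (outIn D B w))
  have hc : Finset.card (B \ M) + Finset.card M = Finset.card B :=
    Finset.card_sdiff_add_card_eq_card hM.1
  rw [Finset.sum_add_distrib] at hR
  nlinarith

omit [Fintype V] [DecidableEq V] in
/-- Some vertex of a dense triangle-free set has small total internal degree towards out-neighbours. -/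
theorem first_step (N : Finset V) (σ : ℕ) (hne : N.Nonempty)
    (hka : ∀ u ∈ N, Finset.card N ≤ Finset.card (outIn D N u) + σ)
    (hedge : ∀ u ∈ N, ∀ z ∈ outIn D N u, Finset.card (outIn D N u) + Finset.card (inIn D N u) +
      (Finset.card (outIn D N z) + Finset.card (inIn D N z)) ≤ Finset.card N) :
    ∃ u ∈ N, (∑ z ∈ outIn D N u,
        ((Finset.card (outIn D N u) : ℤ) + Finset.card (outIn D N z))) ≤
      (Finset.card (outIn D N u) : ℤ) * (2 * (σ : ℤ) - Finset.card N) := by
  set k : V → ℕ := fun u => Finset.card (outIn D N u) with hk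
  set i : V → ℕ := fun u => Finset.card (inIn D N u) with hi
  set n := Finset.card N with hn
  replace hka : ∀ u ∈ N, n ≤ k u + σ := hka
  replace hedge : ∀ u ∈ N, ∀ z ∈ outIn D N u, k u + i u + (k z + i z) ≤ n := hedge
  have hsum_z : ∑ u ∈ N, ∑ z ∈ outIn D N u, i z = ∑ z ∈ N, i z * i z := by
    simp only [outIn, Finset.sum_filter]
    rw [Finset.sum_comm]
    refine Finset.sum_congr rfl fun z _ => ?_
    rw [← Finset.sum_filter, Finset.sum_const, smul_eq_mul]
    rfl
  set e := ∑ u ∈ N, k u with he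
  have hei : ∑ u ∈ N, i u = e := (sum_outIn N).symm
  change ∃ u ∈ N, (∑ z ∈ outIn D N u, ((k u : ℤ) + k z)) ≤ (k u : ℤ) * (2 * (σ : ℤ) - n)
  refine Finset.exists_le_of_sum_le hne ?_
  have h1 : (∑ u ∈ N, ∑ z ∈ outIn D N u, ((k u + k z : ℤ) + (i u + i z : ℤ))) ≤
      ∑ u ∈ N, ∑ z ∈ outIn D N u, (n : ℤ) := by
    refine Finset.sum_le_sum fun u hu => Finset.sum_le_sum fun z hz => ?_
    have := hedge u hu z hz
    omega
  have h2 : (∑ u ∈ N, ∑ z ∈ outIn D N u, (i u : ℤ)) = ∑ u ∈ N, (k u : ℤ) * i u := by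
    simp [hk]
  have h3 : (∑ u ∈ N, ∑ z ∈ outIn D N u, (i z : ℤ)) = ∑ z ∈ N, (i z : ℤ) * i z := by
    exact_mod_cast hsum_z
  have h4' : ∑ u ∈ N, ((n : ℤ) - σ) * i u ≤ ∑ u ∈ N, (k u : ℤ) * i u :=
    Finset.sum_le_sum fun u hu => mul_le_mul_of_nonneg_right
      (by have := hka u hu; omega) (by positivity)
  have h5 : (∑ z ∈ N, (i z : ℤ)) ^ 2 ≤ (n : ℤ) * ∑ z ∈ N, (i z : ℤ) ^ 2 :=
    sq_sum_le_card_mul_sum_sq
  have h6 : ∑ u ∈ N, ((n : ℤ) - σ) ≤ ∑ u ∈ N, (k u : ℤ) :=
    Finset.sum_le_sum fun u hu => by have := hka u hu; omega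
  have h7 : (∑ u ∈ N, (i u : ℤ)) = (e : ℤ) := by exact_mod_cast hei
  have h8 : (∑ u ∈ N, (k u : ℤ)) = (e : ℤ) := by exact_mod_cast he.symm
  have h9 : (∑ u ∈ N, ∑ z ∈ outIn D N u, (n : ℤ)) = (e : ℤ) * n := by
    rw [← h8, Finset.sum_mul]
    simp [hk]
  rw [← Finset.mul_sum, h7] at h4'
  rw [Finset.sum_const, nsmul_eq_mul, h8, ← hn] at h6
  rw [← Finset.sum_mul, h8]
  simp only [Finset.sum_add_distrib] at h1
  simp only [h2, h3, h9] at h1
  simp only [Finset.sum_add_distrib]
  rw [h7] at h5
  simp only [sq] at h5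
  have hn0 : (0 : ℤ) < n := by exact_mod_cast hne.card_pos
  have h10 : ((n : ℤ) - σ) * e ≤ ∑ z ∈ N, (i z : ℤ) * i z := by
    refine le_of_mul_le_mul_left ?_ hn0
    nlinarith [mul_le_mul_of_nonneg_right h6 (Int.natCast_nonneg e)]
  nlinarith

/-- The numerical inequality behind the ratio four fifths. -/
theorem poly_pos (n σ d : ℤ) (h0 : 0 ≤ σ) (h1 : 5 * σ < 4 * n) (h2 : n ≤ d) :
    0 < 5 * (d - (3 * σ - 2 * n)) * (d - σ - (3 * σ - 2 * n)) + σ * (5 * n - 4 * d) := by
  nlinarith [mul_pos (show (0 : ℤ) < 4 * n - 5 * σ by omega)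
      (show (0 : ℤ) < 39 * d + 70 * n - 60 * σ by omega),
    sq_nonneg (25 * d - 28 * n),
    mul_pos (show (0 : ℤ) < n by omega) (show (0 : ℤ) < n by omega)]

/-- The final numerical contradiction. -/
theorem numeric_false (n σ d K m S₁ S₂ : ℤ) (h0 : 0 ≤ σ) (h1 : 5 * σ < 4 * n) (h2 : n ≤ d)
    (hK : d ≤ K + σ) (hm : d - (3 * σ - 2 * n) ≤ m) (hS₁ : K * (d + 2 * n - 3 * σ) ≤ S₁)
    (hS₂ : (d - K) * (5 * n - 4 * d) ≤ 5 * S₂) (hS : S₁ + S₂ + m * m ≤ m * d) : False := by
  set C := 3 * σ - 2 * n with hC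
  have hA : m * (d - m) ≤ C * (d - C) := by
    nlinarith [mul_nonneg (sub_nonneg.2 hm) (show (0 : ℤ) ≤ m - C by omega)]
  have hKb : 0 ≤ (K - (d - σ)) * (5 * (d - C) - (5 * n - 4 * d)) :=
    mul_nonneg (by omega) (by omega)
  have := poly_pos n σ d h0 h1 h2
  nlinarith

include hD h4 in
/-- The second out-neighbourhood has at least four fifths of the size of the first somewhere. -/
theorem four_fifths [Nonempty V] :
    ∃ v, 4 * Finset.card (Finset.univ.filter fun w => D v w) ≤
      5 * Finset.card (Finset.univ.filter fun w => w ≠ v ∧ ¬ D v w ∧ ∃ u, D v u ∧ D u w) := by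
  classical
  by_contra hno
  push Not at hno
  obtain ⟨v, -, hmin⟩ := Finset.exists_min_image Finset.univ
    (fun v => Finset.card (Finset.univ.filter fun w => D v w)) Finset.univ_nonempty
  set out : V → Finset V := fun x => Finset.univ.filter fun w => D x w with hout
  set sec : V → Finset V :=
    fun x => Finset.univ.filter fun w => w ≠ x ∧ ¬ D x w ∧ ∃ u, D x u ∧ D u w with hsec
  have hmem : ∀ x w, w ∈ out x ↔ D x w := fun x w => by simp [hout]
  have hsplit : ∀ x u, D x u → out u \ out x ⊆ sec x := by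
    intro x u hxu w hw
    simp only [Finset.mem_sdiff, hmem] at hw
    simp only [hsec, Finset.mem_filter, Finset.mem_univ, true_and]
    exact ⟨fun e => hD _ _ hxu (e ▸ hw.1), hw.2, u, hxu, hw.1⟩
  have hoi : ∀ x u, Finset.card (outIn D (out x) u) + Finset.card (out u \ out x)
      = Finset.card (out u) := by
    intro x u
    have : outIn D (out x) u = out u ∩ out x := by
      ext w; simp [outIn, hmem, and_comm]
    rw [this]
    exact Finset.card_inter_add_card_sdiff _ _
  set N := out v with hN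
  set k : V → ℕ := fun u => Finset.card (outIn D N u) with hk
  set i : V → ℕ := fun u => Finset.card (inIn D N u) with hi
  set n := Finset.card N with hn
  set σ := Finset.card (sec v) with hσ
  have hnmin : ∀ u, n ≤ Finset.card (out u) := fun u => hmin u (Finset.mem_univ u)
  have hσn : 5 * σ < 4 * n := hno v
  have hku : ∀ u ∈ N, Finset.card (out u) ≤ k u + σ := by
    intro u hu
    rw [← hoi v u]
    exact Nat.add_le_add_left (Finset.card_le_card (hsplit v u ((hmem v u).1 hu))) _
  have hka : ∀ u ∈ N, n ≤ k u + σ := fun u hu => (hnmin u).trans (hku u hu)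
  have hedge : ∀ u ∈ N, ∀ z ∈ outIn D N u, k u + i u + (k z + i z) ≤ n := by
    intro u hu z hz
    simp only [outIn, Finset.mem_filter] at hz
    simp only [hk, hi]
    rw [← card_nbr hD N u, ← card_nbr hD N z, ← Finset.card_union_of_disjoint]
    · exact Finset.card_le_card (Finset.union_subset (Finset.filter_subset _ _)
        (Finset.filter_subset _ _))
    · rw [Finset.disjoint_filter]
      intro w hw h1 h2
      exact h4 v u z w (Or.inl ((hmem v u).1 hu)) (Or.inl ((hmem v z).1 hz.1))
        (Or.inl ((hmem v w).1 hw)) (Or.inl hz.2) h1 h2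
  obtain ⟨u, hu, hgood⟩ := first_step (D := D) N σ (Finset.card_pos.1 (by omega)) hka hedge
  -- the out-neighbourhood of `u`
  set B := out u with hB
  set d := Finset.card B with hd
  set K := k u with hK
  set Z := outIn D N u with hZ
  have hvu : D v u := (hmem v u).1 hu
  have hd1 : n ≤ d := hnmin u
  have hd2 : d ≤ K + σ := hku u hu
  have hτ : 5 * Finset.card (sec u) < 4 * d := hno u
  have hZB : Z ⊆ B := fun z hz => (hmem u z).2 (Finset.mem_filter.1 hz).2
  have hKd : Finset.card Z = K := rfl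
  have hJ : ∀ z ∈ Z, (d : ℤ) + n - σ - (K + k z : ℤ) ≤ Finset.card (outIn D B z) := by
    intro z hz
    have hzN : z ∈ N := (Finset.mem_filter.1 hz).1
    have h1 := hoi v u
    have h2 := hoi v z
    have h3 : Finset.card ((out u \ N) ∪ (out z \ N)) ≤ σ := Finset.card_le_card
      (Finset.union_subset (hsplit v u hvu) (hsplit v z ((hmem v z).1 hzN)))
    have h4'' := Finset.card_union_add_card_inter (out u \ N) (out z \ N)
    have h5 : Finset.card ((out u \ N) ∩ (out z \ N)) ≤ Finset.card (outIn D B z) := by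
      refine Finset.card_le_card fun w hw => ?_
      simp only [Finset.mem_inter, Finset.mem_sdiff] at hw
      simp [outIn, hB, hw.1.1, (hmem z w).1 hw.2.1]
    have h6 := hnmin z
    simp only [← hN] at h1 h2
    change Finset.card (outIn D N u) + Finset.card (out u \ N) = d at h1
    change (d : ℤ) + n - σ - ((Finset.card (outIn D N u) : ℤ) + Finset.card (outIn D N z)) ≤ _
    omega
  have hC : (K : ℤ) * ((d : ℤ) + 2 * n - 3 * σ) ≤ ∑ z ∈ Z, (Finset.card (outIn D B z) : ℤ) := by
    refine le_trans ?_ (Finset.sum_le_sum hJ)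
    rw [Finset.sum_sub_distrib, Finset.sum_const, nsmul_eq_mul, hKd]
    linarith
  have hK0 : 0 < K := by have := hka u hu; omega
  obtain ⟨z, hz, hzJ⟩ : ∃ z ∈ Z, (d : ℤ) + 2 * n - 3 * σ ≤ Finset.card (outIn D B z) := by
    refine Finset.exists_le_of_sum_le (Finset.card_pos.1 (hKd ▸ hK0)) (le_trans ?_ hC)
    rw [Finset.sum_const, nsmul_eq_mul, hKd]
  have hJi : Indep D (outIn D B z) := by
    intro x hx y hy hxy
    simp only [outIn, Finset.mem_filter, hB, hmem] at hx hy
    exact h4 u z x y (Or.inl ((hmem u z).1 (hZB hz))) (Or.inl hx.1) (Or.inl hy.1) (Or.inl hx.2)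
      (Or.inl hy.2) (Or.inl hxy)
  obtain ⟨m, hm1, hm2, hm3⟩ := sum_le_of_indep hD h4 u (outIn D B z)
    (Finset.filter_subset _ _) hJi
  change m ≤ d at hm2
  change (∑ w ∈ B, Finset.card (outIn D B w)) + m * m ≤ m * d at hm3
  have hrest : ∀ w ∈ B \ Z, 5 * (n : ℤ) - 4 * d ≤ 5 * (Finset.card (outIn D B w) : ℤ) := by
    intro w hw
    have h1 := hoi u w
    have h2 := Finset.card_le_card (hsplit u w ((hmem u w).1 (Finset.mem_sdiff.1 hw).1))
    have h3 := hnmin w
    simp only [← hB] at h1 h2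
    omega
  have hlow := Finset.sum_le_sum hrest
  rw [Finset.sum_const, nsmul_eq_mul, ← Finset.mul_sum] at hlow
  have hcard : ((Finset.card (B \ Z) : ℕ) : ℤ) = (d : ℤ) - K := by
    have := Finset.card_sdiff_add_card_eq_card hZB
    omega
  have hsum := Finset.sum_sdiff hZB (f := fun w => (Finset.card (outIn D B w) : ℤ))
  rw [hcard] at hlow
  have hm3' : (∑ w ∈ B, (Finset.card (outIn D B w) : ℤ)) + (m : ℤ) * m ≤ (m : ℤ) * d := by
    exact_mod_cast hm3
  exact numeric_false n σ d K m _ _ (Int.natCast_nonneg σ) (by omega) (by omega) (by omega)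
    (by omega) hC hlow (by linarith)

end Vale.Agent.P038
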