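import Mathlib

/-!
Second neighbourhoods in oriented graphs where each vertex has few non-neighbours.
-/

namespace Vale.Agent.P038.NearTournament

open Finset

variable {V : Type} [Fintype V]

/-- A skew-symmetric game has an optimal strategy of value zero. -/
theorem exists_losing [Nonempty V] (M : V → V → ℝ) (hM : ∀ i j, M i j = -M j i) :
    ∃ q : V → ℝ, (∀ i, 0 ≤ q i) ∧ ∑ i, q i = 1 ∧ (∀ i, 0 ≤ ∑ j, M i j * q j) ∧
      ∀ i, q i * ∑ j, M i j * q j = 0 := by
  classical
  have hz : ∀ p : V → ℝ, ∑ i, p i * ∑ j, M i j * p j = 0 := by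
    intro p
    have h : ∑ i, p i * ∑ j, M i j * p j = -∑ i, p i * ∑ j, M i j * p j := by
      conv_lhs => simp only [Finset.mul_sum]; rw [Finset.sum_comm]
      simp only [Finset.mul_sum, ← Finset.sum_neg_distrib]
      exact Finset.sum_congr rfl fun i _ => Finset.sum_congr rfl fun j _ => by rw [hM j i]; ring
    linarith
  suffices h : ∃ q ∈ stdSimplex ℝ V, ∀ i, 0 ≤ ∑ j, M i j * q j by
    obtain ⟨q, ⟨h0, h1⟩, h2⟩ := h
    exact ⟨q, h0, h1, h2, fun i => (Finset.sum_eq_zero_iff_of_nonneg
      fun j _ => mul_nonneg (h0 j) (h2 j)).1 (hz q) i (mem_univ i)⟩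
  by_contra hno
  let L : (V → ℝ) →ₗ[ℝ] (V → ℝ) := Matrix.mulVecLin (Matrix.of M)
  have hL : ∀ p i, L p i = ∑ j, M i j * p j := fun p i => rfl
  have hPc : Convex ℝ {g : V → ℝ | ∀ i, 0 ≤ g i} :=
    fun a ha b hb s t hs ht _ i => by
      have := ha i
      have := hb i
      simp only [Pi.add_apply, Pi.smul_apply, smul_eq_mul]
      positivity
  have hPcl : IsClosed {g : V → ℝ | ∀ i, 0 ≤ g i} := by
    simp only [Set.ofPred_forall]
    exact isClosed_iInter fun i => isClosed_le continuous_const (continuous_apply i)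
  have hdisj : Disjoint (L '' stdSimplex ℝ V) {g : V → ℝ | ∀ i, 0 ≤ g i} := by
    rw [Set.disjoint_left]
    rintro _ ⟨q, hq, rfl⟩ h
    exact hno ⟨q, hq, fun i => by simpa [hL] using h i⟩
  obtain ⟨f, u, v, hfu, huv, hfv⟩ := geometric_hahn_banach_compact_closed
    ((convex_stdSimplex ℝ V).linear_image L)
    ((isCompact_stdSimplex ℝ V).image L.continuous_of_finiteDimensional) hPc hPcl hdisj
  have hv0 : v < 0 := by simpa using hfv 0 fun i => le_refl _
  set e : V → V → ℝ := fun i => Pi.single i 1
  have hfx : ∀ g : V → ℝ, f g = ∑ i, g i * f (e i) := by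
    intro g
    have hg : g = ∑ i, g i • e i := by
      funext k
      simp [e, Pi.single_apply]
    conv_lhs => rw [hg]
    simp
  have hp : ∀ i, 0 ≤ f (e i) := by
    intro i
    by_contra hi
    rw [not_le] at hi
    have hc : 0 ≤ (v - 1) / f (e i) := div_nonneg_of_nonpos (by linarith) hi.le
    have := hfv (((v - 1) / f (e i)) • e i) fun k => by
      simp only [e, Pi.smul_apply, smul_eq_mul]
      exact mul_nonneg hc (by rw [Pi.single_apply]; split_ifs <;> norm_num)
    rw [map_smul, smul_eq_mul, div_mul_cancel₀ _ hi.ne] at this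
    linarith
  have i0 := Classical.arbitrary V
  have hS : 0 < ∑ i, f (e i) := by
    refine (Finset.sum_nonneg fun i _ => hp i).lt_of_ne fun h => ?_
    have h0 : ∀ i, f (e i) = 0 := fun i =>
      (Finset.sum_eq_zero_iff_of_nonneg fun j _ => hp j).1 h.symm i (mem_univ i)
    have := hfu (L (Pi.single i0 1)) ⟨_, single_mem_stdSimplex ℝ i0, rfl⟩
    rw [hfx] at this
    simp [h0] at this
    linarith
  set q : V → ℝ := fun i => f (e i) / ∑ j, f (e j) with hq
  have hqs : q ∈ stdSimplex ℝ V :=
    ⟨fun i => div_nonneg (hp i) hS.le, by rw [hq, ← Finset.sum_div, div_self hS.ne']⟩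
  have := hfu (L q) ⟨q, hqs, rfl⟩
  rw [hfx] at this
  have hz' : ∑ i, L q i * f (e i) = (∑ j, f (e j)) * ∑ i, q i * ∑ j, M i j * q j := by
    rw [Finset.mul_sum]
    refine Finset.sum_congr rfl fun i _ => ?_
    simp only [hL, hq]
    field_simp
  rw [hz', hz q, mul_zero] at this
  linarith

open Classical in
/-- The bound `|N₂⁺(v)| + 2 Δ ≥ |N₁⁺(v)|` when every vertex has at most `Δ` non-neighbours. -/
theorem exists_second_ge [Nonempty V] (D : V → V → Prop) (hD : ∀ u v, D u v → ¬ D v u) (Δ : ℕ)
    (hΔ : ∀ a, #{b | b ≠ a ∧ ¬ D a b ∧ ¬ D b a} ≤ Δ) :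
    ∃ v, #{w | D v w} ≤ #{w | w ≠ v ∧ ¬ D v w ∧ ∃ u, D v u ∧ D u w} + 2 * Δ := by
  have irr : ∀ a, ¬ D a a := fun a h => hD a a h h
  let Gap : V → V → Prop := fun a y => a ≠ y ∧ ¬ D a y ∧ ¬ D y a
  let Reach : V → V → Prop := fun y z => D y z ∨ ∃ w, D y w ∧ D w z
  let Z : V → V → Finset V := fun a y => {z | (z = a ∨ D a z) ∧ ¬ Reach y z}
  let Conf : V → V → Prop := fun a y => Gap a y ∧ (Z a y).Nonempty ∧ (Z y a).Nonempty
  let Fwd : V → V → Prop := fun a y => Gap a y ∧ (Z a y).Nonempty ∧ ¬ (Z y a).Nonempty
  let M : V → V → ℝ := fun a y =>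
    if D a y ∨ Fwd a y then 1 else if D y a ∨ Fwd y a then -1 else 0
  have hexcl : ∀ a y, D a y ∨ Fwd a y → ¬ (D y a ∨ Fwd y a) := by
    rintro a y (h | h) (h' | h')
    · exact hD _ _ h h'
    · exact h'.1.2.2 h
    · exact h.1.2.2 h'
    · exact h'.2.2 h.2.1
  have hskew : ∀ a y, M a y = -M y a := by
    intro a y
    simp only [M]
    by_cases h1 : D a y ∨ Fwd a y
    · simp [h1, hexcl a y h1]
    · by_cases h2 : D y a ∨ Fwd y a <;> simp [h1, h2]
  have hMle : ∀ a y, M a y ≤ 1 := by
    intro a y
    simp only [M]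
    split_ifs <;> norm_num
  have hconf0 : ∀ a y, Conf a y → M a y = 0 ∧ M y a = 0 := by
    intro a y h
    have h1 : ¬ (D a y ∨ Fwd a y) := fun e => e.elim h.1.2.1 fun e => e.2.2 h.2.2
    have h2 : ¬ (D y a ∨ Fwd y a) := fun e => e.elim h.1.2.2 fun e => e.2.2 h.2.1
    simp [M, h1, h2]
  -- conflict sets are small
  have hZ : ∀ a y, Conf a y → #(Z a y) ≤ Δ := by
    rintro a y ⟨⟨hne, hay, hya⟩, -, w, hw⟩
    refine (Finset.card_le_card fun z hz => ?_).trans (hΔ w)
    simp only [Z, Reach, Finset.mem_filter, Finset.mem_univ, true_and] at hz hw ⊢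
    push Not at hz hw
    refine ⟨?_, ?_, ?_⟩
    · rintro rfl
      rcases hw.1 with rfl | h
      · rcases hz.1 with h | h
        · exact hne h.symm
        · exact hay h
      · exact hz.2.1 h
    · intro h
      rcases hw.1 with rfl | h'
      · exact hz.2.1 h
      · exact hz.2.2 w h' h
    · intro h
      rcases hz.1 with rfl | h'
      · exact hw.2.1 h
      · exact hw.2.2 z h' h
  obtain ⟨q, hq0, hq1, hMq, hMq0⟩ := exists_losing M hskew
  let κ : V → ℝ := fun y => ∑ x, if Conf x y then q x else 0
  let β : V → V → ℝ := fun z y => ∑ x, if Conf x y ∧ (x = z ∨ D x z) then q x else 0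
  let U : V → V → Prop := fun z v => v ≠ z ∧ ¬ Reach v z
  let T : V → V → Prop := fun z v => v ≠ z ∧ ¬ D v z ∧ ∃ u, D v u ∧ D u z
  have hκ0 : ∀ y, 0 ≤ κ y := fun y => Finset.sum_nonneg fun x _ => by
    split_ifs <;> simp [hq0 x]
  have hβ0 : ∀ z y, 0 ≤ β z y := fun z y => Finset.sum_nonneg fun x _ => by
    split_ifs <;> simp [hq0 x]
  have hβκ : ∀ z y, β z y ≤ κ y := fun z y => Finset.sum_le_sum fun x _ => by
    by_cases h : Conf x y <;> by_cases h' : x = z ∨ D x z <;> simp [h, h', hq0 x]
  -- the flow into a vertex outside the second in-neighbourhood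
  have hin : ∀ z y x, U z y → (x = z ∨ D x z) → ¬ Conf x y → M y x = -1 := by
    intro z y x hy hx hc
    have hne : x ≠ y := by
      rintro rfl
      exact hx.elim (fun e => hy.1 e) fun e => hy.2 (Or.inl e)
    have hyx : ¬ D y x := by
      intro h
      rcases hx with rfl | hx
      · exact hy.2 (Or.inl h)
      · exact hy.2 (Or.inr ⟨x, h, hx⟩)
    have h1 : D x y ∨ Fwd x y := by
      by_cases hxy : D x y
      · exact Or.inl hxy
      · refine Or.inr ⟨⟨hne, hxy, hyx⟩, ?_⟩
        have hz : (Z x y).Nonempty :=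
          ⟨z, by simp only [Z, Finset.mem_filter, Finset.mem_univ, true_and]
                 exact ⟨hx.imp Eq.symm id, hy.2⟩⟩
        exact ⟨hz, fun e => hc ⟨⟨hne, hxy, hyx⟩, hz, e⟩⟩
    have := hskew y x
    simp only [M] at this ⊢
    simp [h1, hexcl x y h1]
  have hmain : ∀ z, (∑ x, if D x z then q x else 0) - (∑ x, if T z x then q x else 0) ≤
      ∑ y, if U z y then q y * (2 * β z y / κ y) else 0 := by
    intro z
    let U1 : V → Prop := fun y => U z y ∧ κ y < 2 * β z y
    let U2 : V → Prop := fun y => U z y ∧ ¬ κ y < 2 * β z y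
    set W := ∑ y, if U2 y then q y else 0 with hW
    set qA := ∑ x, if D x z then q x else 0 with hqA
    set qT := ∑ x, if T z x then q x else 0 with hqT
    set q1 := ∑ x, if U1 x then q x else 0 with hqU
    have hW0 : 0 ≤ W := Finset.sum_nonneg fun y _ => by split_ifs <;> simp [hq0 y]
    have hsplit : (∑ y, if U z y then q y * (2 * β z y / κ y) else 0) =
        (∑ y, if U1 y then q y * (2 * β z y / κ y) else 0) +
        ∑ y, if U2 y then q y * (2 * β z y / κ y) else 0 := by
      rw [← Finset.sum_add_distrib]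
      refine Finset.sum_congr rfl fun y _ => ?_
      by_cases h : U z y <;> by_cases h' : κ y < 2 * β z y <;> simp [U1, U2, h, h']
    have hU1 : q1 ≤ ∑ y, if U1 y then q y * (2 * β z y / κ y) else 0 := by
      refine Finset.sum_le_sum fun y _ => ?_
      by_cases h : U1 y
      · have hκ : 0 < κ y := by linarith [h.2, hβκ z y, hκ0 y]
        rw [if_pos h, if_pos h]
        exact le_mul_of_one_le_right (hq0 y) ((one_le_div hκ).2 h.2.le)
      · simp [h]
    have hcases : ∀ x, x = z ∨ D x z ∨ T z x ∨ U1 x ∨ U2 x := by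
      intro x
      by_cases h1 : x = z
      · exact Or.inl h1
      by_cases h2 : D x z
      · exact Or.inr (Or.inl h2)
      by_cases h3 : ∃ u, D x u ∧ D u z
      · exact Or.inr (Or.inr (Or.inl ⟨h1, h2, h3⟩))
      have hU : U z x := ⟨h1, fun e => e.elim h2 h3⟩
      by_cases h4 : κ x < 2 * β z x
      · exact Or.inr (Or.inr (Or.inr (Or.inl ⟨hU, h4⟩)))
      · exact Or.inr (Or.inr (Or.inr (Or.inr ⟨hU, h4⟩)))
    suffices hkey : qA - qT - q1 ≤ ∑ y, if U2 y then q y * (2 * β z y / κ y) else 0 by linarith
    set R := ∑ y, if U2 y then q y * (2 * β z y / κ y) else 0 with hR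
    rcases hW0.eq_or_lt with hW1 | hW1
    · have hz2 : ∀ x, U2 x → q x = 0 := fun x hx => by
        have := (Finset.sum_eq_zero_iff_of_nonneg fun y _ => by split_ifs <;> simp [hq0 y]).1
          hW1.symm x (mem_univ x)
        simpa [hx] using this
      have h0 : 0 ≤ R := Finset.sum_nonneg fun y _ => by
        split_ifs
        · exact mul_nonneg (hq0 y) (div_nonneg (by linarith [hβ0 z y]) (hκ0 y))
        · exact le_rfl
      have h1 : ∑ x, M z x * q x ≤ -qA + qT + q1 := by
        simp only [hqA, hqT, hqU, ← Finset.sum_neg_distrib, ← Finset.sum_add_distrib]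
        refine Finset.sum_le_sum fun x _ => ?_
        have hq := hq0 x
        rcases hcases x with rfl | h | h | h | h
        · have : M x x = 0 := by linarith [hskew x x]
          simp [this, irr, T, U1, U]
        · have : M z x = -1 := by
            have hk := hskew z x
            simp [M, h] at hk ⊢
            simp [hD _ _ h, Fwd, Gap, h]
          simp [this, h, T, U1, U, Reach]
        · have h' : ¬ U1 x := fun e => e.1.2 (Or.inr h.2.2)
          simp [h, h', h.2.1]
          nlinarith [hMle z x]
        · have h' : ¬ T z x := fun e => h.1.2 (Or.inr e.2.2)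
          have h'' : ¬ D x z := fun e => h.1.2 (Or.inl e)
          simp [h, h', h'']
          nlinarith [hMle z x]
        · simp [hz2 x h]
      linarith [hMq z]
    · -- weighted flow through the minority vertices
      let u : V → ℝ := fun y => ∑ x, if Conf x y ∧ U2 x then q x else 0
      have hflow : ∀ y, U2 y → ∑ x, M y x * q x ≤ -qA + qT + q1 + 2 * β z y - κ y + u y +
          ∑ x, if U2 x then M y x * q x else 0 := by
        intro y hy
        simp only [hqA, hqT, hqU, β, κ, u, Finset.mul_sum, ← Finset.sum_neg_distrib,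
          ← Finset.sum_add_distrib, ← Finset.sum_sub_distrib]
        refine Finset.sum_le_sum fun x _ => ?_
        have hq := hq0 x
        by_cases hc : Conf x y
        · have hM := (hconf0 x y hc).2
          rcases hcases x with rfl | h | h | h | h
          · simp [hc, hM, irr, T, U1, U2, U]
            linarith
          · simp [hc, hM, h, T, U1, U2, U, Reach]
            linarith
          · have h' : ¬ U z x := fun e => e.2 (Or.inr h.2.2)
            simp [hc, hM, h, h', U1, U2, h.1, h.2.1]
          · have h' : ¬ T z x := fun e => h.1.2 (Or.inr e.2.2)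
            have h'' : ¬ D x z := fun e => h.1.2 (Or.inl e)
            have h3 : ¬ U2 x := fun e => e.2 h.2
            simp [hc, hM, h, h', h'', h3, h.1.1]
          · have h' : ¬ T z x := fun e => h.1.2 (Or.inr e.2.2)
            have h'' : ¬ D x z := fun e => h.1.2 (Or.inl e)
            have h3 : ¬ U1 x := fun e => h.2 e.2
            simp [hc, hM, h, h', h'', h3, h.1.1]
        · rcases hcases x with rfl | h | h | h | h
          · simp [hin x y x hy.1 (Or.inl rfl) hc, hc, irr, T, U1, U2, U]
            linarith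
          · simp [hin z y x hy.1 (Or.inr h) hc, hc, h, T, U1, U2, U, Reach]
          · have h' : ¬ U z x := fun e => e.2 (Or.inr h.2.2)
            simp [hc, h, h', U1, U2, h.1, h.2.1]
            nlinarith [hMle y x]
          · have h' : ¬ T z x := fun e => h.1.2 (Or.inr e.2.2)
            have h'' : ¬ D x z := fun e => h.1.2 (Or.inl e)
            have h3 : ¬ U2 x := fun e => e.2 h.2
            simp [hc, h, h', h'', h3, h.1.1]
            nlinarith [hMle y x]
          · have h' : ¬ T z x := fun e => h.1.2 (Or.inr e.2.2)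
            have h'' : ¬ D x z := fun e => h.1.2 (Or.inl e)
            have h3 : ¬ U1 x := fun e => h.2 e.2
            simp [hc, h, h', h'', h3, h.1.1]
      have hcancel : (∑ y, if U2 y then q y * ∑ x, (if U2 x then M y x * q x else 0) else 0) = 0 := by
        have h : ∀ y x, (if U2 y then q y * (if U2 x then M y x * q x else 0) else 0) =
            -(if U2 x then q x * (if U2 y then M x y * q y else 0) else 0) := by
          intro y x
          rw [hskew y x]
          by_cases h1 : U2 y <;> by_cases h2 : U2 x <;> simp [h1, h2] <;> ring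
        have e : (∑ y, if U2 y then q y * ∑ x, (if U2 x then M y x * q x else 0) else 0) =
            ∑ y, ∑ x, if U2 y then q y * (if U2 x then M y x * q x else 0) else 0 := by
          refine Finset.sum_congr rfl fun y _ => ?_
          by_cases h1 : U2 y <;> simp [h1, Finset.mul_sum]
        have e' := e
        rw [Finset.sum_comm] at e'
        have e2 : (∑ y, if U2 y then q y * ∑ x, (if U2 x then M y x * q x else 0) else 0) =
            -∑ y, if U2 y then q y * ∑ x, (if U2 x then M y x * q x else 0) else 0 := by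
          conv_rhs => rw [e]
          rw [← Finset.sum_neg_distrib, e']
          refine Finset.sum_congr rfl fun y _ => ?_
          rw [← Finset.sum_neg_distrib]
          exact Finset.sum_congr rfl fun x _ => h x y
        linarith
      have hu : ∀ y, U2 y → 2 * β z y - κ y + u y ≤ W * (2 * β z y / κ y) := by
        intro y hy
        have hu1 : u y ≤ κ y := Finset.sum_le_sum fun x _ => by
          by_cases h : Conf x y <;> by_cases h' : U2 x <;> simp [h, h', hq0 x]
        have hu2 : u y ≤ W := Finset.sum_le_sum fun x _ => by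
          by_cases h : Conf x y <;> by_cases h' : U2 x <;> simp [h, h', hq0 x]
        have h2 : 2 * β z y ≤ κ y := not_lt.1 hy.2
        rcases (hκ0 y).eq_or_lt with hk | hk
        · rw [← hk] at hu1 h2 ⊢
          simp
          linarith [hβ0 z y]
        · rw [mul_div_assoc', le_div_iff₀ hk]
          nlinarith [hβ0 z y, mul_nonneg (sub_nonneg.2 hu1) (sub_nonneg.2 h2),
            mul_le_mul_of_nonneg_left hu2 (by linarith [hβ0 z y] : (0 : ℝ) ≤ 2 * β z y)]
      have h1 : ∀ y, (if U2 y then q y * (qA - qT - q1) else 0) ≤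
          (if U2 y then W * (q y * (2 * β z y / κ y)) else 0) +
            (if U2 y then q y * ∑ x, (if U2 x then M y x * q x else 0) else 0) := by
        intro y
        by_cases hy : U2 y
        · simp only [if_pos hy]
          have e0 := hMq0 y
          have e1 := mul_le_mul_of_nonneg_left (hflow y hy) (hq0 y)
          have e2 := mul_le_mul_of_nonneg_left (hu y hy) (hq0 y)
          nlinarith
        · simp [hy]
      have h2 := Finset.sum_le_sum (s := univ) fun y (_ : y ∈ univ) => h1 y
      rw [Finset.sum_add_distrib, hcancel, add_zero] at h2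
      have e1 : (∑ y, if U2 y then q y * (qA - qT - q1) else 0) = W * (qA - qT - q1) := by
        rw [hW, Finset.sum_mul]
        exact Finset.sum_congr rfl fun y _ => by split_ifs <;> simp
      have e2 : (∑ y, if U2 y then W * (q y * (2 * β z y / κ y)) else 0) = W * R := by
        rw [hR, Finset.mul_sum]
        exact Finset.sum_congr rfl fun y _ => by split_ifs <;> simp
      rw [e1, e2] at h2
      exact le_of_mul_le_mul_left h2 hW1
  -- sum over all vertices
  have hy : ∀ y, (∑ z, if U z y then q y * (2 * β z y / κ y) else 0) ≤ q y * (2 * Δ) := by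
    intro y
    have hsum : (∑ z, if U z y then β z y else 0) ≤ Δ * κ y := by
      have e : (∑ z, if U z y then β z y else 0) =
          ∑ z, ∑ x, if U z y ∧ Conf x y ∧ (x = z ∨ D x z) then q x else 0 := by
        refine Finset.sum_congr rfl fun z _ => ?_
        by_cases h : U z y <;> simp [h, β]
      rw [e, Finset.sum_comm]
      simp only [κ, Finset.mul_sum]
      refine Finset.sum_le_sum fun x _ => ?_
      by_cases hc : Conf x y
      · rw [← Finset.sum_filter, Finset.sum_const, nsmul_eq_mul, if_pos hc]
        refine mul_le_mul_of_nonneg_right (Nat.cast_le.2 ((Finset.card_le_card ?_).trans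
          (hZ x y hc))) (hq0 x)
        intro z hz
        simp only [Z, Finset.mem_filter, Finset.mem_univ, true_and] at hz ⊢
        exact ⟨hz.2.2.imp Eq.symm id, hz.1.2⟩
      · simp [hc]
    rcases (hκ0 y).eq_or_lt with hk | hk
    · simp [← hk]
      exact mul_nonneg (hq0 y) (by positivity)
    · have e : (∑ z, if U z y then q y * (2 * β z y / κ y) else 0) =
          q y * (2 * (∑ z, if U z y then β z y else 0) / κ y) := by
        rw [Finset.mul_sum, Finset.sum_div, Finset.mul_sum]
        exact Finset.sum_congr rfl fun z _ => by split_ifs <;> simp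
      rw [e]
      refine mul_le_mul_of_nonneg_left ?_ (hq0 y)
      rw [div_le_iff₀ hk]
      linarith
  by_contra hno
  push Not at hno
  have htot := Finset.sum_le_sum (s := univ) fun z (_ : z ∈ univ) => hmain z
  rw [Finset.sum_sub_distrib, Finset.sum_comm] at htot
  conv_lhs at htot => arg 2; rw [Finset.sum_comm]
  conv_rhs at htot => rw [Finset.sum_comm]
  have hle : (∑ y, ∑ z, if U z y then q y * (2 * β z y / κ y) else 0) ≤ 2 * Δ := by
    refine (Finset.sum_le_sum fun y _ => hy y).trans ?_
    rw [← Finset.sum_mul, hq1, one_mul]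
  have hlow : (2 * Δ + 1 : ℝ) ≤
      (∑ v, ∑ z, if D v z then q v else 0) - ∑ v, ∑ z, if T z v then q v else 0 := by
    rw [← Finset.sum_sub_distrib]
    calc (2 * Δ + 1 : ℝ) = ∑ v, q v * (2 * Δ + 1) := by rw [← Finset.sum_mul, hq1, one_mul]
      _ ≤ _ := by
        refine Finset.sum_le_sum fun v _ => ?_
        rw [← Finset.sum_filter, ← Finset.sum_filter, Finset.sum_const, Finset.sum_const,
          nsmul_eq_mul, nsmul_eq_mul, ← sub_mul, mul_comm (q v)]
        refine mul_le_mul_of_nonneg_right ?_ (hq0 v)
        have hT : Finset.filter (fun z => T z v) univ =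
            Finset.filter (fun w => w ≠ v ∧ ¬ D v w ∧ ∃ u, D v u ∧ D u w) univ :=
          Finset.filter_congr fun z _ => by simp only [T, ne_comm]
        rw [hT]
        have hv : #{w | w ≠ v ∧ ¬ D v w ∧ ∃ u, D v u ∧ D u w} + 2 * Δ + 1 ≤ #{w | D v w} :=
          hno v
        have hvr := (Nat.cast_le (α := ℝ)).2 hv
        push_cast at hvr
        linarith
  linarith

end Vale.Agent.P038.NearTournament
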